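import Mathlib

/-!
Piecewise integral-affine bijections of sets cut out by rational normals.
-/

namespace Vale.Agent.P196.Exchange

variable {d : ℕ}

/-- signs of finitely many affine functions with rational linear parts at a point -/
noncomputable def sideVec {J : ℕ} (n : Fin J → Fin d → ℚ) (c : Fin J → ℝ) (x : Fin d → ℝ) :
    Fin J → SignType :=
  fun j => SignType.sign (∑ k, (n j k : ℝ) * x k - c j)

/-- a Boolean combination of finitely many half spaces with rational normals -/
def RationalPolySet (Ω : Set (Fin d → ℝ)) : Prop :=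
  ∃ (J : ℕ) (n : Fin J → Fin d → ℚ) (c : Fin J → ℝ),
    ∀ x y, sideVec n c x = sideVec n c y → x ∈ Ω → y ∈ Ω

/-- on each of finitely many pieces with rational normals, an affine map with integral linear
part and arbitrary real translation -/
def PiecewiseIntAffine {Ω : Set (Fin d → ℝ)} (f : Equiv.Perm Ω) : Prop :=
  ∃ (J : ℕ) (n : Fin J → Fin d → ℚ) (c : Fin J → ℝ)
    (A : (Fin J → SignType) → Matrix (Fin d) (Fin d) ℤ) (t : (Fin J → SignType) → Fin d → ℝ),
    ∀ (x : Ω) (k : Fin d), (f x : Fin d → ℝ) k =
      ∑ l, (A (sideVec n c x) k l : ℝ) * (x : Fin d → ℝ) l + t (sideVec n c x) k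

/-- the group generated by the piecewise integral-affine bijections -/
def exchangeGroup (Ω : Set (Fin d → ℝ)) : Subgroup (Equiv.Perm Ω) :=
  Subgroup.closure {f | PiecewiseIntAffine f}

end Vale.Agent.P196.Exchange
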