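import Vale.Agent.P196.Exchange.Model

/-!
Groups of piecewise integral-affine bijections are locally embeddable into finite groups.
-/

namespace Vale.Agent.P196.Exchange

open Finset

variable {d : ℕ} {Ω : Set (Fin d → ℝ)}

theorem exists_natBound (hb : Bornology.IsBounded Ω) : ∃ B : ℕ, ∀ x ∈ Ω, ∀ k, |x k| ≤ B := by
  obtain ⟨C, hC⟩ := isBounded_iff_forall_norm_le.1 hb
  refine ⟨⌈C⌉₊, fun x hx k => ?_⟩
  rw [← Real.norm_eq_abs]
  exact ((norm_le_pi_norm x k).trans (hC x hx)).trans (Nat.le_ceil C)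

theorem model_words (hΩ : RationalPolySet Ω) (hb : Bornology.IsBounded Ω)
    (W : Finset (FreeGroup {f : Equiv.Perm Ω // PiecewiseIntAffine f})) :
    ∃ (Y : Type) (_ : Finite Y) (σ : {f : Equiv.Perm Ω // PiecewiseIntAffine f} → Equiv.Perm Y),
      ∀ w ∈ W, FreeGroup.lift Subtype.val w = 1 ↔ FreeGroup.lift σ w = 1 := by
  classical
  obtain ⟨B, hB⟩ := exists_natBound hb
  obtain ⟨J₀, n₀, c₀, hS⟩ := hΩ
  let T : Finset {f : Equiv.Perm Ω // PiecewiseIntAffine f} :=
    W.biUnion fun w => (w.toWord.map Prod.fst).toFinset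
  let e : T ≃ Fin T.card := T.equivFin
  choose J n c A t hf using fun i : Fin T.card => ((e.symm i).1).2
  let S : ExSystem d T.card :=
    { Ω := Ω, B := B, hB := hB, J₀ := J₀, n₀ := n₀, c₀ := c₀, hΩ := hS,
      f := fun i => ((e.symm i).1).1, J := J, n := n, c := c, A := A, t := t, hf := hf }
  let ρ : {f : Equiv.Perm Ω // PiecewiseIntAffine f} × Bool → List (Fin T.card × Bool) :=
    fun p => if h : p.1 ∈ T then [(e ⟨p.1, h⟩, p.2)] else []
  obtain ⟨Y, hY, σ, hσ⟩ := S.exists_model (W.toList.map fun w => w.toWord.flatMap ρ)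
  refine ⟨Y, hY, fun x => if h : x ∈ T then σ (e ⟨x, h⟩) else 1, fun w hw => ?_⟩
  have h := hσ _ (List.mem_map_of_mem (Finset.mem_toList.2 hw))
  have hT : ∀ p ∈ w.toWord, p.1 ∈ T := fun p hp =>
    Finset.mem_biUnion.2 ⟨w, hw, List.mem_toFinset.2 (List.mem_map_of_mem hp)⟩
  rw [← run_eq_lift, ← run_eq_lift]
  have e1 : ∀ L : List ({f : Equiv.Perm Ω // PiecewiseIntAffine f} × Bool), (∀ p ∈ L, p.1 ∈ T) →
      run S.f (L.flatMap ρ) = run Subtype.val L ∧
      run σ (L.flatMap ρ) = run (fun x => if h : x ∈ T then σ (e ⟨x, h⟩) else 1) L := by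
    intro L hL
    induction L with
    | nil => exact ⟨rfl, rfl⟩
    | cons p l ih =>
      obtain ⟨i1, i2⟩ := ih fun q hq => hL q (List.mem_cons_of_mem _ hq)
      have hp := hL p List.mem_cons_self
      simp only [run] at i1 i2 ⊢
      simp only [List.flatMap_cons, ρ, dif_pos hp, List.map_cons, List.prod_cons,
        List.singleton_append]
      exact ⟨by rw [i1]; simp [S], by rw [i2]⟩
  obtain ⟨a, b⟩ := e1 _ hT
  rw [← a, ← b]
  exact h

theorem exists_word (g : exchangeGroup Ω) :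
    ∃ w : FreeGroup {f : Equiv.Perm Ω // PiecewiseIntAffine f},
      FreeGroup.lift Subtype.val w = (g : Equiv.Perm Ω) := by
  have h : (FreeGroup.lift (Subtype.val : {f : Equiv.Perm Ω // PiecewiseIntAffine f} → _)).range
      = exchangeGroup Ω := by
    rw [FreeGroup.range_lift_eq_closure, Subtype.range_coe_subtype]; rfl
  exact (h.ge g.2)

theorem locally_finite_models (hΩ : RationalPolySet Ω) (hb : Bornology.IsBounded Ω)
    (E : Finset (exchangeGroup Ω)) :
    ∃ (Q : Type) (_ : Group Q) (_ : Finite Q) (φ : exchangeGroup Ω → Q),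
      Set.InjOn φ E ∧ ∀ g ∈ E, ∀ h ∈ E, g * h ∈ E → φ (g * h) = φ g * φ h := by
  classical
  choose w hw using exists_word (Ω := Ω)
  obtain ⟨Y, hY, σ, hσ⟩ := model_words hΩ hb
    ((E ×ˢ E).image (fun p => w p.1 * w p.2 * (w (p.1 * p.2))⁻¹) ∪
      (E ×ˢ E).image (fun p => w p.1 * (w p.2)⁻¹))
  refine ⟨Equiv.Perm Y, inferInstance, inferInstance, fun g => FreeGroup.lift σ (w g), ?_, ?_⟩
  · intro g hg h hh he
    have := (hσ (w g * (w h)⁻¹) (Finset.mem_union_right _ (Finset.mem_image.2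
      ⟨(g, h), Finset.mem_product.2 ⟨hg, hh⟩, rfl⟩))).2 (by simp [map_mul, map_inv, he])
    rw [map_mul, map_inv, hw, hw, mul_inv_eq_one] at this
    exact Subtype.ext this
  · intro g hg h hh _
    have := (hσ (w g * w h * (w (g * h))⁻¹) (Finset.mem_union_left _ (Finset.mem_image.2
      ⟨(g, h), Finset.mem_product.2 ⟨hg, hh⟩, rfl⟩))).1 (by
        simp [map_mul, map_inv, hw])
    rw [map_mul, map_inv, map_mul, mul_inv_eq_one] at this
    exact this.symm

theorem separated (hΩ : RationalPolySet Ω) (hb : Bornology.IsBounded Ω) {H : Type*} [Group H]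
    [Group.IsFinitelyPresented H] (ψ : H →* exchangeGroup Ω) {g : H} (hg : ψ g ≠ 1) :
    ∃ K : Subgroup H, K.Normal ∧ K.FiniteIndex ∧ g ∉ K := by
  classical
  obtain ⟨n, π, hπ, R, hR, hker⟩ := (inferInstance : Group.IsFinitelyPresented H).out
  choose w hw using exists_word (Ω := Ω)
  let u : FreeGroup (Fin n) →* FreeGroup {f : Equiv.Perm Ω // PiecewiseIntAffine f} :=
    FreeGroup.lift fun j => w (ψ (π (FreeGroup.of j)))
  have hu : (FreeGroup.lift Subtype.val).comp u = ((exchangeGroup Ω).subtype.comp ψ).comp π :=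
    FreeGroup.ext_hom _ _ fun j => by simp [u, hw]
  obtain ⟨v, rfl⟩ := hπ g
  obtain ⟨Y, hY, σ, hσ⟩ := model_words hΩ hb (insert (u v) (hR.toFinset.image u))
  let Φ : FreeGroup (Fin n) →* Equiv.Perm Y := (FreeGroup.lift σ).comp u
  have hkill : π.ker ≤ Φ.ker := by
    rw [← hker]
    refine Subgroup.normalClosure_le_normal fun r hr => ?_
    have h1 : FreeGroup.lift Subtype.val (u r) = 1 := by
      have := DFunLike.congr_fun hu r
      simp only [MonoidHom.comp_apply] at this
      have h0 : r ∈ π.ker := hker ▸ Subgroup.subset_normalClosure hr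
      rw [this, MonoidHom.mem_ker.1 h0, map_one, map_one]
    exact MonoidHom.mem_ker.2 ((hσ _ (Finset.mem_insert_of_mem
      (Finset.mem_image_of_mem _ (hR.mem_toFinset.2 hr)))).1 h1)
  let Φ' : H →* Equiv.Perm Y := MonoidHom.liftOfSurjective π hπ ⟨Φ, hkill⟩
  have hΦ : Φ' (π v) = Φ v :=
    DFunLike.congr_fun (MonoidHom.liftOfRightInverse_comp π _ (Function.rightInverse_surjInv hπ) ⟨Φ, hkill⟩) v
  have : Finite (H ⧸ Φ'.ker) :=
    Finite.of_equiv _ (QuotientGroup.quotientKerEquivRange Φ').symm.toEquiv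
  refine ⟨Φ'.ker, inferInstance, Subgroup.finiteIndex_of_finite_quotient, fun hv => hg ?_⟩
  rw [MonoidHom.mem_ker, hΦ] at hv
  have := DFunLike.congr_fun hu v
  simp only [MonoidHom.comp_apply] at this
  exact Subtype.ext (this.symm.trans ((hσ _ (Finset.mem_insert_self _ _)).2 hv))

theorem simple_subgroup_finite (hΩ : RationalPolySet Ω) (hb : Bornology.IsBounded Ω)
    (H : Subgroup (exchangeGroup Ω)) [Group.IsFinitelyPresented H] [IsSimpleGroup H] :
    Finite H := by
  obtain ⟨g, hg⟩ := exists_ne (1 : H)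
  obtain ⟨K, hK, hKf, hgK⟩ := separated hΩ hb H.subtype (g := g) (fun h => hg (Subtype.ext h))
  rcases hK.eq_bot_or_eq_top with rfl | rfl
  · have : Finite (H ⧸ (⊥ : Subgroup H)) := Subgroup.finite_quotient_of_finiteIndex
    exact Finite.of_equiv _ (QuotientGroup.quotientBot (G := H)).toEquiv
  · exact absurd (Subgroup.mem_top g) hgK

end Vale.Agent.P196.Exchange
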