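import Mathlib

/-!
Transfer of sign conditions of affine forms with rational coefficients between ordered fields.
-/

namespace Vale.Agent.P196.Exchange

open Finset

set_option linter.unusedSectionVars false

/-- affine form: constant and coefficients -/
abbrev Aff (ι : Type*) := ℚ × (ι → ℚ)

section
variable {ι κ : Type*} [Fintype ι] [Fintype κ] {K : Type*} [Field K] [LinearOrder K]
  [IsStrictOrderedRing K]

/-- evaluation of a form -/
def ev (f : Aff ι) (x : ι → K) : K := (f.1 : K) + ∑ i, (f.2 i : K) * x i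

theorem ev_add (f g : Aff ι) (x : ι → K) : ev (f + g) x = ev f x + ev g x := by
  simp only [ev, Prod.fst_add, Prod.snd_add, Pi.add_apply, Rat.cast_add, add_mul, sum_add_distrib]
  ring

theorem ev_smul (q : ℚ) (f : Aff ι) (x : ι → K) : ev (q • f) x = (q : K) * ev f x := by
  simp only [ev, Prod.smul_fst, Prod.smul_snd, Pi.smul_apply, smul_eq_mul, Rat.cast_mul, mul_add,
    mul_sum, mul_assoc]

theorem ev_zero (x : ι → K) : ev (0 : Aff ι) x = 0 := by simp [ev]

theorem ev_neg (f : Aff ι) (x : ι → K) : ev (-f) x = -ev f x := by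
  simp [ev, sum_neg_distrib]; ring

theorem ev_sub (f g : Aff ι) (x : ι → K) : ev (f - g) x = ev f x - ev g x := by
  rw [sub_eq_add_neg, ev_add, ev_neg]; ring

theorem ev_sum {α : Type*} (s : Finset α) (f : α → Aff ι) (x : ι → K) :
    ev (∑ a ∈ s, f a) x = ∑ a ∈ s, ev (f a) x := by
  classical
  induction s using Finset.induction with
  | empty => simp [ev_zero]
  | insert a t ha ih => rw [sum_insert ha, sum_insert ha, ev_add, ih]

/-- coordinate form -/
def coord [DecidableEq ι] (i : ι) : Aff ι := (0, Pi.single i 1)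

theorem ev_coord [DecidableEq ι] (i : ι) (x : ι → K) : ev (coord i) x = x i := by
  simp [ev, coord, Pi.single_apply, apply_ite (Rat.cast : ℚ → K)]

/-- constant form -/
def konst (q : ℚ) : Aff ι := (q, 0)

theorem ev_konst (q : ℚ) (x : ι → K) : ev (konst q : Aff ι) x = q := by simp [ev, konst]

/-- pullback along a renaming -/
def rename (e : ι ≃ κ) (f : Aff ι) : Aff κ := (f.1, fun j => f.2 (e.symm j))

theorem ev_rename (e : ι ≃ κ) (f : Aff ι) (x : κ → K) : ev (rename e f) x = ev f (x ∘ e) := by
  simp only [ev, rename, Function.comp_apply]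
  congr 1
  exact (Fintype.sum_equiv e _ _ (fun i => by simp)).symm

end

/-- same signs on a finite set of forms -/
def Same {ι : Type*} [Fintype ι] {K K' : Type*} [Field K] [LinearOrder K] [Field K']
    [LinearOrder K'] (F : Finset (Aff ι)) (x : ι → K) (x' : ι → K') : Prop :=
  ∀ f ∈ F, SignType.sign (ev f x) = SignType.sign (ev f x')

theorem Same.symm {ι : Type*} [Fintype ι] {K K' : Type*} [Field K] [LinearOrder K] [Field K']
    [LinearOrder K'] {F : Finset (Aff ι)} {x : ι → K} {x' : ι → K'} (h : Same F x x') :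
    Same F x' x := fun f hf => (h f hf).symm

section
variable {K K' : Type*} [Field K] [LinearOrder K] [IsStrictOrderedRing K]
  [Field K'] [LinearOrder K'] [IsStrictOrderedRing K']

theorem sign_cast (q : ℚ) : SignType.sign (q : K) = SignType.sign q := by
  rcases lt_trichotomy q 0 with h | h | h
  · rw [sign_neg h, sign_neg (Rat.cast_lt_zero.2 h)]
  · simp [h]
  · rw [sign_pos h, sign_pos (Rat.cast_pos.2 h)]

theorem cut {α : Type*} (S : Finset α) (r : α → K) (r' : α → K')
    (h : ∀ a ∈ S, ∀ b ∈ S, SignType.sign (r a - r b) = SignType.sign (r' a - r' b)) (t : K) :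
    ∃ t' : K', ∀ a ∈ S, SignType.sign (t - r a) = SignType.sign (t' - r' a) := by
  classical
  by_cases hex : ∃ a ∈ S, r a = t
  · obtain ⟨a, ha, rfl⟩ := hex
    exact ⟨r' a, fun b hb => h a ha b hb⟩
  · push Not at hex
    obtain ⟨t', h1, h2⟩ := Finset.exists_between'
      ((S.filter (fun a => r a < t)).image r') ((S.filter (fun a => t < r a)).image r') (by
        intro x hx y hy
        simp only [Finset.mem_image, Finset.mem_filter] at hx hy
        obtain ⟨a, ⟨ha, ha'⟩, rfl⟩ := hx
        obtain ⟨b, ⟨hb, hb'⟩, rfl⟩ := hy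
        have := h a ha b hb
        rw [sign_neg (sub_neg.2 (ha'.trans hb'))] at this
        exact sub_neg.1 (sign_eq_neg_one_iff.1 this.symm))
    refine ⟨t', fun a ha => ?_⟩
    rcases lt_or_gt_of_ne (hex a ha) with hl | hl
    · have := h1 (r' a) (Finset.mem_image_of_mem _ (Finset.mem_filter.2 ⟨ha, hl⟩))
      rw [sign_pos (sub_pos.2 hl), sign_pos (sub_pos.2 this)]
    · have := h2 (r' a) (Finset.mem_image_of_mem _ (Finset.mem_filter.2 ⟨ha, hl⟩))
      rw [sign_neg (sub_neg.2 hl), sign_neg (sub_neg.2 this)]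

end

/-- eliminate one variable -/
theorem step_extend {ι : Type*} [Fintype ι] (L : Finset (Aff (Option ι))) :
    ∃ F : Finset (Aff ι), ∀ (K K' : Type) [Field K] [LinearOrder K] [IsStrictOrderedRing K]
      [Field K'] [LinearOrder K'] [IsStrictOrderedRing K'] (x : ι → K) (x' : ι → K'),
      Same F x x' → ∀ t : K, ∃ t' : K',
        Same L (fun o => o.elim t x) (fun o => o.elim t' x') := by
  classical
  let rest : Aff (Option ι) → Aff ι := fun f => (f.1, fun i => f.2 (some i))
  let root : Aff (Option ι) → Aff ι := fun f => (-(f.2 none)⁻¹) • rest f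
  let L₀ := L.filter fun f => f.2 none ≠ 0
  refine ⟨(L.filter fun f => f.2 none = 0).image rest ∪
    (L₀ ×ˢ L₀).image (fun p => root p.1 - root p.2), ?_⟩
  intro K K' _ _ _ _ _ _ x x' hS t
  obtain ⟨t', ht'⟩ := cut L₀ (fun f => ev (root f) x) (fun f => ev (root f) x') (by
    intro a ha b hb
    rw [← ev_sub, ← ev_sub]
    exact hS _ (Finset.mem_union_right _ (Finset.mem_image.2
      ⟨(a, b), Finset.mem_product.2 ⟨ha, hb⟩, rfl⟩))) t
  refine ⟨t', fun f hf => ?_⟩
  have e1 : ev f (fun o => o.elim t x) = (f.2 none : K) * t + ev (rest f) x := by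
    simp [ev, rest, Fintype.sum_option]; ring
  have e2 : ev f (fun o => o.elim t' x') = (f.2 none : K') * t' + ev (rest f) x' := by
    simp [ev, rest, Fintype.sum_option]; ring
  rw [e1, e2]
  by_cases h0 : f.2 none = 0
  · simp only [h0, Rat.cast_zero, zero_mul, zero_add]
    exact hS _ (Finset.mem_union_left _ (Finset.mem_image.2
      ⟨f, Finset.mem_filter.2 ⟨hf, h0⟩, rfl⟩))
  · have hK : (f.2 none : K) ≠ 0 := Rat.cast_ne_zero.2 h0
    have hK' : (f.2 none : K') ≠ 0 := Rat.cast_ne_zero.2 h0
    have a1 : (f.2 none : K) * t + ev (rest f) x = (f.2 none : K) * (t - ev (root f) x) := by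
      simp only [root, ev_smul, Rat.cast_neg, Rat.cast_inv]; field_simp; ring
    have a2 : (f.2 none : K') * t' + ev (rest f) x' =
        (f.2 none : K') * (t' - ev (root f) x') := by
      simp only [root, ev_smul, Rat.cast_neg, Rat.cast_inv]; field_simp; ring
    rw [a1, a2, sign_mul, sign_mul, sign_cast, sign_cast]
    exact congrArg _ (ht' f (Finset.mem_filter.2 ⟨hf, h0⟩))

theorem extend_fin (m : ℕ) : ∀ (ι : Type) [Fintype ι] (L : Finset (Aff (ι ⊕ Fin m))),
    ∃ F : Finset (Aff ι), ∀ (K K' : Type) [Field K] [LinearOrder K] [IsStrictOrderedRing K]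
      [Field K'] [LinearOrder K'] [IsStrictOrderedRing K'] (x : ι → K) (x' : ι → K'),
      Same F x x' → ∀ y : Fin m → K, ∃ y' : Fin m → K',
        Same L (Sum.elim x y) (Sum.elim x' y') := by
  classical
  induction m with
  | zero =>
    intro ι _ L
    let e : ι ⊕ Fin 0 ≃ ι := Equiv.sumEmpty ι (Fin 0)
    refine ⟨L.image (rename e), ?_⟩
    intro K K' _ _ _ _ _ _ x x' hS y
    refine ⟨Fin.elim0, fun f hf => ?_⟩
    have h := hS _ (Finset.mem_image_of_mem (rename e) hf)
    rw [ev_rename, ev_rename] at h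
    have h1 : x ∘ e = Sum.elim x y := by
      funext v; rcases v with i | i
      · rfl
      · exact i.elim0
    have h2 : x' ∘ e = Sum.elim x' Fin.elim0 := by
      funext v; rcases v with i | i
      · rfl
      · exact i.elim0
    rwa [h1, h2] at h
  | succ m ih =>
    intro ι _ L
    let e : ι ⊕ Fin (m + 1) ≃ Option ι ⊕ Fin m :=
      { toFun := Sum.elim (fun i => Sum.inl (some i))
          (fun j => Fin.cases (Sum.inl none) (fun k => Sum.inr k) j)
        invFun := Sum.elim (fun o => o.elim (Sum.inr 0) Sum.inl) (fun k => Sum.inr k.succ)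
        left_inv := by
          rintro (i | j)
          · rfl
          · refine Fin.cases ?_ ?_ j <;> simp
        right_inv := by rintro ((_ | i) | k) <;> simp }
    obtain ⟨F', hF'⟩ := ih (Option ι) (L.image (rename e))
    obtain ⟨F, hF⟩ := step_extend F'
    refine ⟨F, ?_⟩
    intro K K' _ _ _ _ _ _ x x' hS y
    obtain ⟨t', ht'⟩ := hF K K' x x' hS (y 0)
    obtain ⟨z', hz'⟩ := hF' K K' _ _ ht' (fun k => y k.succ)
    refine ⟨Fin.cons t' z', fun f hf => ?_⟩
    have h := hz' _ (Finset.mem_image_of_mem (rename e) hf)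
    rw [ev_rename, ev_rename] at h
    have h1 : Sum.elim (fun o => Option.elim o (y 0) x) (fun k => y k.succ) ∘ e = Sum.elim x y := by
      funext v; rcases v with i | j
      · rfl
      · refine Fin.cases ?_ ?_ j <;> simp [e]
    have h2 : Sum.elim (fun o => Option.elim o t' x') z' ∘ e = Sum.elim x' (Fin.cons t' z') := by
      funext v; rcases v with i | j
      · rfl
      · refine Fin.cases ?_ ?_ j <;> simp [e]
    rwa [h1, h2] at h

/-- extension of a sign-equivalent pair by any finite block of variables -/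
theorem exists_extend {ι κ : Type} [Fintype ι] [Fintype κ] (L : Finset (Aff (ι ⊕ κ))) :
    ∃ F : Finset (Aff ι), ∀ (K K' : Type) [Field K] [LinearOrder K] [IsStrictOrderedRing K]
      [Field K'] [LinearOrder K'] [IsStrictOrderedRing K'] (x : ι → K) (x' : ι → K'),
      Same F x x' → ∀ y : κ → K, ∃ y' : κ → K',
        Same L (Sum.elim x y) (Sum.elim x' y') := by
  classical
  let e : ι ⊕ κ ≃ ι ⊕ Fin (Fintype.card κ) := Equiv.sumCongr (Equiv.refl ι) (Fintype.equivFin κ)
  obtain ⟨F, hF⟩ := extend_fin _ ι (L.image (rename e))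
  refine ⟨F, ?_⟩
  intro K K' _ _ _ _ _ _ x x' hS y
  obtain ⟨z', hz'⟩ := hF K K' x x' hS (y ∘ (Fintype.equivFin κ).symm)
  refine ⟨z' ∘ Fintype.equivFin κ, fun f hf => ?_⟩
  have h := hz' _ (Finset.mem_image_of_mem (rename e) hf)
  rw [ev_rename, ev_rename] at h
  have h1 : Sum.elim x (y ∘ (Fintype.equivFin κ).symm) ∘ e = Sum.elim x y := by
    funext v; rcases v with i | j <;> simp [e]
  have h2 : Sum.elim x' z' ∘ e = Sum.elim x' (z' ∘ Fintype.equivFin κ) := by
    funext v; rcases v with i | j <;> simp [e]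
  rwa [h1, h2] at h

/-- finitely many sign conditions satisfied by reals are satisfied by rationals -/
theorem exists_rat {ι : Type} [Fintype ι] (L : Finset (Aff ι)) (x : ι → ℝ) :
    ∃ x' : ι → ℚ, Same L x x' := by
  classical
  let e : ι ≃ Empty ⊕ ι := (Equiv.emptySum Empty ι).symm
  obtain ⟨F, hF⟩ := exists_extend (L.image (rename e))
  obtain ⟨x', hx'⟩ := hF ℝ ℚ (fun i => i.elim) (fun i => i.elim) (by
    intro f _
    simp [ev, sign_cast]) x
  refine ⟨x', fun f hf => ?_⟩
  have h := hx' _ (Finset.mem_image_of_mem (rename e) hf)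
  rw [ev_rename, ev_rename] at h
  exact h

end Vale.Agent.P196.Exchange
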