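import Vale.Agent.P196.Exchange.Defs
import Vale.Agent.P196.Exchange.Transfer

/-!
Finite models for finitely many words in piecewise integral-affine bijections.
-/

namespace Vale.Agent.P196.Exchange

open Finset

/-- rationals that are integers after scaling by q -/
def Scaled (q : ℕ) (r : ℚ) : Prop := ∃ z : ℤ, (q : ℚ) * r = z

theorem scaled_of_den {q : ℕ} {r : ℚ} (h : r.den ∣ q) : Scaled q r := by
  obtain ⟨m, rfl⟩ := h
  exact ⟨r.num * m, by push_cast; rw [← Rat.mul_den_eq_num r]; ring⟩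

theorem exists_denominator {α : Type*} [Fintype α] (v : α → ℚ) :
    ∃ q : ℕ, 0 < q ∧ ∀ a, Scaled q (v a) :=
  ⟨∏ a, (v a).den, Finset.prod_pos fun a _ => (v a).den_pos,
    fun a => scaled_of_den (Finset.dvd_prod_of_mem _ (Finset.mem_univ a))⟩

/-- value of a word with signs -/
def run {G : Type*} [Group G] {ι : Type*} (f : ι → G) (L : List (ι × Bool)) : G :=
  (L.map fun p => cond p.2 (f p.1) (f p.1)⁻¹).prod

theorem run_eq_lift {G : Type*} [Group G] {ι : Type*} [DecidableEq ι] (f : ι → G)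
    (w : FreeGroup ι) : run f w.toWord = FreeGroup.lift f w := by
  conv_rhs => rw [← FreeGroup.mk_toWord (x := w)]
  rw [FreeGroup.lift_mk]; rfl

theorem run_drop_succ {G : Type*} [Group G] {ι : Type*} (f : ι → G) (L : List (ι × Bool))
    {k : ℕ} (hk : k < L.length) :
    run f (L.drop k) = cond L[k].2 (f L[k].1) (f L[k].1)⁻¹ * run f (L.drop (k + 1)) := by
  rw [List.drop_eq_getElem_cons hk]
  rfl

variable {d : ℕ}

/-- data for finitely many bijections of one polyhedral set -/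
structure ExSystem (d s : ℕ) where
  Ω : Set (Fin d → ℝ)
  B : ℕ
  hB : ∀ x ∈ Ω, ∀ k, |x k| ≤ B
  J₀ : ℕ
  n₀ : Fin J₀ → Fin d → ℚ
  c₀ : Fin J₀ → ℝ
  hΩ : ∀ x y, sideVec n₀ c₀ x = sideVec n₀ c₀ y → x ∈ Ω → y ∈ Ω
  f : Fin s → Equiv.Perm Ω
  J : Fin s → ℕ
  n : ∀ i, Fin (J i) → Fin d → ℚ
  c : ∀ i, Fin (J i) → ℝ
  A : ∀ i, (Fin (J i) → SignType) → Matrix (Fin d) (Fin d) ℤ
  t : ∀ i, (Fin (J i) → SignType) → Fin d → ℝ
  hf : ∀ i (x : Ω) (k : Fin d), (f i x : Fin d → ℝ) k =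
    ∑ l, (A i (sideVec (n i) (c i) x) k l : ℝ) * (x : Fin d → ℝ) l
      + t i (sideVec (n i) (c i) x) k

namespace ExSystem

variable {s : ℕ} (S : ExSystem d s)

/-- parameters -/
abbrev Par : Type :=
  Fin S.J₀ ⊕ (Σ i, Fin (S.J i)) ⊕ (Σ i, (Fin (S.J i) → SignType) × Fin d)

/-- the real parameters -/
def θR : S.Par → ℝ :=
  Sum.elim S.c₀ (Sum.elim (fun p => S.c p.1 p.2) (fun p => S.t p.1 p.2.1 p.2.2))

section
variable {K : Type} [Field K] [LinearOrder K] [IsStrictOrderedRing K]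

/-- side vector of the ambient set over an ordered field -/
def side0 (θ : S.Par → K) (x : Fin d → K) : Fin S.J₀ → SignType :=
  fun j => SignType.sign (∑ k, (S.n₀ j k : K) * x k - θ (Sum.inl j))

/-- side vector of a generator over an ordered field -/
def sideI (θ : S.Par → K) (i : Fin s) (x : Fin d → K) : Fin (S.J i) → SignType :=
  fun j => SignType.sign (∑ k, (S.n i j k : K) * x k - θ (Sum.inr (Sum.inl ⟨i, j⟩)))

/-- membership -/
def Mem (θ : S.Par → K) (x : Fin d → K) : Prop :=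
  ∃ z ∈ S.Ω, sideVec S.n₀ S.c₀ z = S.side0 θ x

/-- formula for the image -/
def img (θ : S.Par → K) (i : Fin s) (x : Fin d → K) : Fin d → K :=
  fun k => ∑ l, (S.A i (S.sideI θ i x) k l : K) * x l
    + θ (Sum.inr (Sum.inr ⟨i, S.sideI θ i x, k⟩))

/-- the graph of a generator -/
def Step (θ : S.Par → K) (i : Fin s) (x z : Fin d → K) : Prop :=
  S.Mem θ x ∧ S.Mem θ z ∧ z = S.img θ i x

end

theorem mem_real (x : Fin d → ℝ) : S.Mem S.θR x ↔ x ∈ S.Ω :=
  ⟨fun ⟨z, hz, he⟩ => S.hΩ z x he hz, fun h => ⟨x, h, rfl⟩⟩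

theorem img_real (i : Fin s) (x : S.Ω) : S.img S.θR i x = (S.f i x : Fin d → ℝ) :=
  funext fun k => (S.hf i x k).symm

theorem step_real (i : Fin s) (x z : Fin d → ℝ) :
    S.Step S.θR i x z ↔ ∃ hx : x ∈ S.Ω, (S.f i ⟨x, hx⟩ : Fin d → ℝ) = z := by
  constructor
  · rintro ⟨hx, -, rfl⟩
    exact ⟨(S.mem_real x).1 hx, (S.img_real i ⟨x, _⟩).symm⟩
  · rintro ⟨hx, rfl⟩
    exact ⟨(S.mem_real x).2 hx, (S.mem_real _).2 (S.f i ⟨x, hx⟩).2,
      (S.img_real i ⟨x, hx⟩).symm⟩

/-- what sign equivalence of two configurations gives -/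
def Alike {K K' : Type} [Field K] [LinearOrder K] [Field K'] [LinearOrder K'] (N : ℕ)
    (θ : S.Par → K) (y : Fin N → Fin d → K) (θ' : S.Par → K') (y' : Fin N → Fin d → K') : Prop :=
  (∀ a, S.Mem θ (y a) ↔ S.Mem θ' (y' a)) ∧
  (∀ i a b, S.Step θ i (y a) (y b) ↔ S.Step θ' i (y' a) (y' b)) ∧
  (∀ i a b, y b = S.img θ i (y a) ↔ y' b = S.img θ' i (y' a)) ∧
  (∀ a b, y a = y b ↔ y' a = y' b) ∧
  (∀ a k, |y a k| ≤ (S.B : K) ↔ |y' a k| ≤ (S.B : K'))

theorem exists_forms (N : ℕ) :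
    ∃ L : Finset (Aff (S.Par ⊕ (Fin N × Fin d))), ∀ (K K' : Type) [Field K] [LinearOrder K]
      [IsStrictOrderedRing K] [Field K'] [LinearOrder K'] [IsStrictOrderedRing K']
      (θ : S.Par → K) (θ' : S.Par → K') (y : Fin N × Fin d → K) (y' : Fin N × Fin d → K'),
      Same L (Sum.elim θ y) (Sum.elim θ' y') →
        S.Alike N θ (fun a k => y (a, k)) θ' (fun a k => y' (a, k)) := by
  classical
  let P : Fin N → Fin d → Aff (S.Par ⊕ (Fin N × Fin d)) := fun a k => coord (Sum.inr (a, k))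
  let T : S.Par → Aff (S.Par ⊕ (Fin N × Fin d)) := fun p => coord (Sum.inl p)
  let g0 : Fin N × Fin S.J₀ → Aff (S.Par ⊕ (Fin N × Fin d)) :=
    fun q => (∑ k, S.n₀ q.2 k • P q.1 k) - T (Sum.inl q.2)
  let g1 : Fin N × (Σ i, Fin (S.J i)) → Aff (S.Par ⊕ (Fin N × Fin d)) :=
    fun q => (∑ k, S.n q.2.1 q.2.2 k • P q.1 k) - T (Sum.inr (Sum.inl q.2))
  let g2 : Fin N × Fin N × (Σ i, (Fin (S.J i) → SignType) × Fin d) →
      Aff (S.Par ⊕ (Fin N × Fin d)) :=
    fun q => P q.2.1 q.2.2.2.2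
      - ((∑ l, (S.A q.2.2.1 q.2.2.2.1 q.2.2.2.2 l : ℚ) • P q.1 l) + T (Sum.inr (Sum.inr q.2.2)))
  let g3 : Fin N × Fin N × Fin d → Aff (S.Par ⊕ (Fin N × Fin d)) :=
    fun q => P q.1 q.2.2 - P q.2.1 q.2.2
  let g4 : Fin N × Fin d → Aff (S.Par ⊕ (Fin N × Fin d)) :=
    fun q => konst (S.B : ℚ) - P q.1 q.2
  let g5 : Fin N × Fin d → Aff (S.Par ⊕ (Fin N × Fin d)) :=
    fun q => konst (S.B : ℚ) + P q.1 q.2
  refine ⟨univ.image g0 ∪ univ.image g1 ∪ univ.image g2 ∪ univ.image g3 ∪ univ.image g4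
    ∪ univ.image g5, ?_⟩
  intro K K' _ _ _ _ _ _ θ θ' y y' h
  simp only [Same, Finset.mem_union, or_imp, forall_and, Finset.forall_mem_image, Finset.mem_univ,
    forall_const] at h
  obtain ⟨⟨⟨⟨⟨h0, h1⟩, h2⟩, h3⟩, h4'⟩, h5'⟩ := h
  have e0 : ∀ a, S.side0 θ (fun k => y (a, k)) = S.side0 θ' (fun k => y' (a, k)) := by
    intro a; funext j
    have := @h0 (a, j)
    simpa [g0, P, T, side0, ev_sub, ev_sum, ev_smul, ev_coord] using this
  have e1 : ∀ i a, S.sideI θ i (fun k => y (a, k)) = S.sideI θ' i (fun k => y' (a, k)) := by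
    intro i a; funext j
    have := @h1 (a, ⟨i, j⟩)
    simpa [g1, P, T, sideI, ev_sub, ev_sum, ev_smul, ev_coord] using this
  have hmem : ∀ a, S.Mem θ (fun k => y (a, k)) ↔ S.Mem θ' (fun k => y' (a, k)) := fun a => by
    simp only [Mem, e0]
  have himg : ∀ i a b, ((fun k => y (b, k)) = S.img θ i (fun k => y (a, k))) ↔
      ((fun k => y' (b, k)) = S.img θ' i (fun k => y' (a, k))) := by
    intro i a b
    simp only [funext_iff, img, e1]
    refine forall_congr' fun k => ?_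
    have := @h2 (a, b, ⟨i, S.sideI θ' i (fun k => y' (a, k)), k⟩)
    simp only [g2, P, T, ev_sub, ev_add, ev_sum, ev_smul, ev_coord, Sum.elim_inr, Sum.elim_inl,
      Rat.cast_intCast] at this
    rw [← sub_eq_zero, ← sign_eq_zero_iff, this, sign_eq_zero_iff, sub_eq_zero]
  refine ⟨hmem, fun i a b => ?_, himg, fun a b => ?_, fun a k => ?_⟩
  · simp only [Step, hmem, himg]
  · simp only [funext_iff]
    refine forall_congr' fun k => ?_
    have := @h3 (a, b, k)
    simp only [g3, P, ev_sub, ev_coord, Sum.elim_inr] at this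
    rw [← sub_eq_zero, ← sign_eq_zero_iff, this, sign_eq_zero_iff, sub_eq_zero]
  · have h4 := @h4' (a, k)
    have h5 := @h5' (a, k)
    simp only [g4, g5, P, ev_sub, ev_add, ev_coord, ev_konst, Sum.elim_inr, Rat.cast_natCast]
      at h4 h5
    simp only [abs_le, neg_le_iff_add_nonneg']
    rw [← sub_nonneg (b := y (a, k)), ← sub_nonneg (b := y' (a, k))]
    rw [← not_lt, ← not_lt, ← sign_eq_neg_one_iff, ← sign_eq_neg_one_iff, h4, h5,
      sign_eq_neg_one_iff, sign_eq_neg_one_iff, not_lt, not_lt]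

theorem exists_model (W : List (List (Fin s × Bool))) :
    ∃ (Y : Type) (_ : Finite Y) (σ : Fin s → Equiv.Perm Y),
      ∀ L ∈ W, run S.f L = 1 ↔ run σ L = 1 := by
  classical
  let ℓ : ℕ := (W.map List.length).sum
  have hℓ : ∀ L ∈ W, L.length ≤ ℓ := fun L hL =>
    List.le_sum_of_mem (List.mem_map_of_mem hL)
  let N : ℕ := ℓ + 3
  obtain ⟨L₁, hL₁⟩ := S.exists_forms N
  obtain ⟨F, hF⟩ := exists_extend L₁
  obtain ⟨θ, hθ⟩ := exists_rat F S.θR
  -- configurations transferred in both directions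
  have down : ∀ y : Fin N → Fin d → ℝ, ∃ y' : Fin N → Fin d → ℚ, S.Alike N S.θR y θ y' := by
    intro y
    obtain ⟨y', hy'⟩ := hF ℝ ℚ S.θR θ hθ (fun p => y p.1 p.2)
    exact ⟨fun a k => y' (a, k), hL₁ ℝ ℚ S.θR θ (fun p => y p.1 p.2) y' hy'⟩
  have up : ∀ y : Fin N → Fin d → ℚ, ∃ y' : Fin N → Fin d → ℝ, S.Alike N θ y S.θR y' := by
    intro y
    obtain ⟨y', hy'⟩ := hF ℚ ℝ θ S.θR hθ.symm (fun p => y p.1 p.2)
    exact ⟨fun a k => y' (a, k), hL₁ ℚ ℝ θ S.θR (fun p => y p.1 p.2) y' hy'⟩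
  have s0 : 0 < N := by omega
  have s1 : 1 < N := by omega
  have s2 : 2 < N := by omega
  let mk3 : (Fin d → ℚ) → (Fin d → ℚ) → (Fin d → ℚ) → Fin N → Fin d → ℚ :=
    fun a b c v => if v.val = 0 then a else if v.val = 1 then b else c
  have m0 : ∀ a b c, mk3 a b c ⟨0, s0⟩ = a := fun _ _ _ => rfl
  have m1 : ∀ a b c, mk3 a b c ⟨1, s1⟩ = b := fun _ _ _ => rfl
  have m2 : ∀ a b c, mk3 a b c ⟨2, s2⟩ = c := fun _ _ _ => rfl
  have htot : ∀ i x, S.Mem θ x → S.Step θ i x (S.img θ i x) := by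
    intro i x hx
    obtain ⟨y, hm, -, hi, -, -⟩ := up (mk3 x (S.img θ i x) x)
    have hx' : y ⟨0, s0⟩ ∈ S.Ω := (S.mem_real _).1 ((hm ⟨0, s0⟩).1 (by rw [m0]; exact hx))
    have he : y ⟨1, s1⟩ = S.img S.θR i (y ⟨0, s0⟩) := (hi i ⟨0, s0⟩ ⟨1, s1⟩).1 (by rw [m0, m1])
    refine ⟨hx, ?_, rfl⟩
    have := (hm ⟨1, s1⟩).2 (by
      rw [he, S.img_real i ⟨_, hx'⟩, S.mem_real]
      exact (S.f i _).2)
    rwa [m1] at this
  have hinj : ∀ i x x' z, S.Step θ i x z → S.Step θ i x' z → x = x' := by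
    intro i x x' z h h'
    obtain ⟨y, -, hs, -, he, -⟩ := up (mk3 x x' z)
    obtain ⟨u, hu⟩ := (S.step_real i _ _).1 ((hs i ⟨0, s0⟩ ⟨2, s2⟩).1 (by rw [m0, m2]; exact h))
    obtain ⟨u', hu'⟩ := (S.step_real i _ _).1 ((hs i ⟨1, s1⟩ ⟨2, s2⟩).1 (by rw [m1, m2]; exact h'))
    have : y ⟨0, s0⟩ = y ⟨1, s1⟩ := congrArg Subtype.val
      ((S.f i).injective (Subtype.ext (hu.trans hu'.symm)) : (⟨_, u⟩ : S.Ω) = ⟨_, u'⟩)
    have := (he ⟨0, s0⟩ ⟨1, s1⟩).2 this
    rwa [m0, m1] at this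
  have hbd : ∀ x, S.Mem θ x → ∀ k, |x k| ≤ (S.B : ℚ) := by
    intro x hx k
    obtain ⟨y, hm, -, -, -, hb⟩ := up (mk3 x x x)
    have hx' : y ⟨0, s0⟩ ∈ S.Ω := (S.mem_real _).1 ((hm ⟨0, s0⟩).1 (by rw [m0]; exact hx))
    have := (hb ⟨0, s0⟩ k).2 (S.hB _ hx' k)
    rwa [m0] at this
  -- a rational witness trajectory for each word
  have hwit : ∀ L : {L // L ∈ W}, ∃ y' : Fin N → Fin d → ℚ, run S.f L.1 ≠ 1 →
      (∀ (k : ℕ) (hk : k < L.1.length), cond (L.1[k]).2
        (S.Step θ (L.1[k]).1 (y' ⟨k + 1, by have := hℓ _ L.2; omega⟩)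
          (y' ⟨k, by have := hℓ _ L.2; omega⟩))
        (S.Step θ (L.1[k]).1 (y' ⟨k, by have := hℓ _ L.2; omega⟩)
          (y' ⟨k + 1, by have := hℓ _ L.2; omega⟩))) ∧
      S.Mem θ (y' ⟨L.1.length, by have := hℓ _ L.2; omega⟩) ∧
      y' ⟨0, s0⟩ ≠ y' ⟨L.1.length, by have := hℓ _ L.2; omega⟩ := by
    intro L
    by_cases h1 : run S.f L.1 = 1
    · exact ⟨fun _ => 0, fun h => absurd h1 h⟩
    obtain ⟨x, hx⟩ : ∃ x : S.Ω, run S.f L.1 x ≠ x := by
      by_contra hc
      push Not at hc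
      exact h1 (Equiv.ext hc)
    obtain ⟨y', hm, hs, -, he, -⟩ :=
      down (fun a => ((run S.f (L.1.drop a.val) x : S.Ω) : Fin d → ℝ))
    refine ⟨y', fun _ => ⟨fun k hk => ?_, ?_, ?_⟩⟩
    · have hr := congrArg (fun g : Equiv.Perm S.Ω => g x) (run_drop_succ S.f L.1 hk)
      simp only [Equiv.Perm.mul_apply] at hr
      revert hr
      cases (L.1[k]).2 <;> intro hr <;> simp only [cond_true, cond_false] at hr ⊢
      · exact (hs _ _ _).1 ((S.step_real _ _ _).2 ⟨Subtype.coe_prop _, by simp [hr]⟩)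
      · exact (hs _ _ _).1 ((S.step_real _ _ _).2 ⟨Subtype.coe_prop _, by simp [hr]⟩)
    · exact (hm _).1 ((S.mem_real _).2 (Subtype.coe_prop _))
    · intro hc
      have := Subtype.ext ((he _ _).2 hc)
      simp [run] at this
      exact hx this
  choose wit hwit using hwit
  obtain ⟨q, hq, hqs⟩ := exists_denominator
    (Sum.elim θ (fun p : {L // L ∈ W.toFinset} × Fin N × Fin d =>
      wit ⟨p.1.1, List.mem_toFinset.1 p.1.2⟩ p.2.1 p.2.2))
  have closed : ∀ i x, (∀ k, Scaled q (x k)) → ∀ k, Scaled q (S.img θ i x k) := by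
    intro i x hx k
    choose z hz using hx
    obtain ⟨w, hw⟩ := hqs (Sum.inl (Sum.inr (Sum.inr ⟨i, S.sideI θ i x, k⟩)))
    refine ⟨∑ l, S.A i (S.sideI θ i x) k l * z l + w, ?_⟩
    simp only [img, mul_add, Finset.mul_sum]
    simp only [Sum.elim_inl] at hw
    push_cast
    rw [hw]
    congr 1
    exact Finset.sum_congr rfl fun l _ => by rw [← hz l]; ring
  let Y : Type := {x : Fin d → ℚ // S.Mem θ x ∧ ∀ k, Scaled q (x k)}
  have hfin : Finite Y := by
    let M : ℤ := (q * S.B : ℕ)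
    let φ : Y → (Fin d → ↥(Finset.Icc (-M) M)) := fun x k =>
      ⟨Classical.choose (x.2.2 k), by
        have hz := Classical.choose_spec (x.2.2 k)
        have hb := abs_le.1 (hbd x.1 x.2.1 k)
        have hq' : (0 : ℚ) ≤ (q : ℚ) := Nat.cast_nonneg q
        simp only [Finset.mem_Icc]
        have h1 := mul_le_mul_of_nonneg_left hb.1 hq'
        have h2 := mul_le_mul_of_nonneg_left hb.2 hq'
        rw [hz, mul_neg] at h1
        rw [hz] at h2
        constructor
        · rw [← Int.cast_le (R := ℚ)]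
          simpa [M] using h1
        · rw [← Int.cast_le (R := ℚ)]
          simpa [M] using h2⟩
    refine Finite.of_injective φ fun x x' h => Subtype.ext (funext fun k => ?_)
    have hk := congrArg Subtype.val (congrFun h k)
    have a := Classical.choose_spec (x.2.2 k)
    have b := Classical.choose_spec (x'.2.2 k)
    have : (q : ℚ) * x.1 k = q * x'.1 k := by
      rw [a, b]
      exact congrArg (Int.cast : ℤ → ℚ) hk
    exact mul_left_cancel₀ (Nat.cast_ne_zero.2 (Nat.pos_iff_ne_zero.1 hq)) this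
  let σf : Fin s → Y → Y := fun i x =>
    ⟨S.img θ i x.1, (htot i x.1 x.2.1).2.1, closed i x.1 x.2.2⟩
  have σinj : ∀ i, Function.Injective (σf i) := fun i x x' h => Subtype.ext
    (hinj i x.1 x'.1 (S.img θ i x.1) (htot i x.1 x.2.1)
      (by rw [show S.img θ i x.1 = S.img θ i x'.1 from congrArg Subtype.val h]
          exact htot i x'.1 x'.2.1))
  let σ : Fin s → Equiv.Perm Y := fun i =>
    Equiv.ofBijective (σf i) (Finite.injective_iff_bijective.1 (σinj i))
  have hσ : ∀ i (x : Y), (σ i x).1 = S.img θ i x.1 := fun i x => rfl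
  refine ⟨Y, hfin, σ, fun L hL => ⟨fun h1 => ?_, fun h1 => ?_⟩⟩
  · -- relations survive
    refine Equiv.ext fun x => ?_
    obtain ⟨y, hm, hs, -, he, -⟩ := up (fun a => (run σ (L.drop a.val) x).1)
    have hlen := hℓ L hL
    have hxΩ : y ⟨L.length, by omega⟩ ∈ S.Ω :=
      (S.mem_real _).1 ((hm _).1 (run σ (L.drop L.length) x).2.1)
    have key : ∀ j k (hk : k + j = L.length), y ⟨k, by omega⟩ =
        ((run S.f (L.drop k) ⟨_, hxΩ⟩ : S.Ω) : Fin d → ℝ) := by
      intro j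
      induction j with
      | zero => intro k hk; simp only [Nat.add_zero] at hk; subst hk; simp [run]
      | succ j ih =>
        intro k hk
        have hkl : k < L.length := by omega
        have ih' := ih (k + 1) (by omega)
        have hr := congrArg (fun g : Equiv.Perm Y => g x) (run_drop_succ σ L hkl)
        rw [run_drop_succ S.f L hkl]
        simp only [Equiv.Perm.mul_apply] at hr ⊢
        revert hr
        cases (L[k]).2 <;> intro hr <;> simp only [cond_true, cond_false] at hr ⊢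
        · have h' := (hs (L[k]).1 ⟨k, by omega⟩ ⟨k + 1, by omega⟩).1 ⟨(run σ (L.drop k) x).2.1,
            (run σ (L.drop (k + 1)) x).2.1, by
              show (run σ (L.drop (k + 1)) x).1 = S.img θ _ (run σ (L.drop k) x).1
              rw [← hσ, hr]; simp⟩
          obtain ⟨u, hu⟩ := (S.step_real _ _ _).1 h'
          have : S.f (L[k]).1 ⟨_, u⟩ = run S.f (L.drop (k + 1)) ⟨_, hxΩ⟩ :=
            Subtype.ext (hu.trans ih')
          rw [← this]; simp
        · have h' := (hs (L[k]).1 ⟨k + 1, by omega⟩ ⟨k, by omega⟩).1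
            ⟨(run σ (L.drop (k + 1)) x).2.1, (run σ (L.drop k) x).2.1, by
              show (run σ (L.drop k) x).1 = S.img θ _ (run σ (L.drop (k + 1)) x).1
              rw [← hσ, hr]⟩
          obtain ⟨u, hu⟩ := (S.step_real _ _ _).1 h'
          rw [← hu]
          exact congrArg (fun v => ((S.f (L[k]).1 v : S.Ω) : Fin d → ℝ)) (Subtype.ext ih')
    have h0 := key L.length 0 (by omega)
    simp only [List.drop_zero, h1, Equiv.Perm.one_apply] at h0
    have := (he ⟨0, s0⟩ ⟨L.length, by omega⟩).2 h0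
    simp [run] at this
    exact Subtype.ext this
  · -- witnesses survive
    by_contra hne
    obtain ⟨hlink, hmem, hdiff⟩ := hwit ⟨L, hL⟩ hne
    set y := wit ⟨L, hL⟩ with hy
    have hlen := hℓ L hL
    have hsc : ∀ a k, Scaled q (y a k) := fun a k =>
      hqs (Sum.inr (⟨L, List.mem_toFinset.2 hL⟩, a, k))
    let x : Y := ⟨y ⟨L.length, by omega⟩, hmem, hsc _⟩
    have key : ∀ j k (hk : k + j = L.length),
        (run σ (L.drop k) x).1 = y ⟨k, by omega⟩ := by
      intro j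
      induction j with
      | zero => intro k hk; simp only [Nat.add_zero] at hk; subst hk; simp [run, x]
      | succ j ih =>
        intro k hk
        have hkl : k < L.length := by omega
        have ih' := ih (k + 1) (by omega)
        have hl := hlink k hkl
        rw [run_drop_succ σ L hkl]
        simp only [Equiv.Perm.mul_apply]
        revert hl
        cases (L[k]).2 <;> intro hl <;> simp only [cond_true, cond_false] at hl ⊢
        · have hY : σ (L[k]).1 ⟨y ⟨k, by omega⟩, hl.1, hsc _⟩ = run σ (L.drop (k + 1)) x :=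
            Subtype.ext (by rw [hσ, ih']; exact hl.2.2.symm)
          rw [← hY]; simp
        · rw [hσ, ih']; exact hl.2.2.symm
    have h0 := key L.length 0 (by omega)
    simp only [List.drop_zero, h1, Equiv.Perm.one_apply] at h0
    exact hdiff h0.symm

end ExSystem

end Vale.Agent.P196.Exchange
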